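import Crest.Agent.N228.Nk.Pt

/-!
# Row 228, necks (helper16): solutions of `H = q (S (u) - k)`:
admissibility, gain, barrier, the weak sequence
-/

set_option autoImplicit false
set_option linter.unusedSectionVars false
open MeasureTheory Set Filter Topology Function Metric
open scoped ContDiff InnerProductSpace RealInnerProductSpace

noncomputable section

namespace Crest.Agent.N228.Nk

open Crest.Agent.N222 Crest.Agent.N222.Imm

variable {d : ℕ} {ι : Type} [Fintype ι] [DecidableEq ι] {X : Type} [TopologicalSpace X]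
  [MeasurableSpace X] {M : Imm d ι X} {F u q k f : X → ℝ} {S : ℝ → ℝ}

theorem dir_u_nonneg (M : Imm d ι X) (u : X → ℝ) (p : X) : 0 ≤ M.pre.dir (M.Xf u) u p := by
  rw [dir_Xf]; exact mul_nonneg (M.vv_pos u p).le (gam_self_nonneg _ _)

/-- `|X|² ≤ X (u)` -/
theorem sq_le_dir (M : Imm d ι X) (u : X → ℝ) (p : X) :
    1 - M.vv u p ^ 2 ≤ M.pre.dir (M.Xf u) u p := by
  have h1 := M.vv_sq u p
  have h2 := M.vv_pos u p
  have h3 := M.vv_le_one u p
  have h4 := gam_self_nonneg (M := M) u p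
  rw [dir_Xf]
  nlinarith [mul_nonneg (mul_nonneg h2.le h4) (sub_nonneg.2 h3)]

/-- `X (f)² ≤ |X|² |∇f|²` -/
theorem dir_sq_le (M : Imm d ι X) (u f : X → ℝ) (p : X) :
    M.pre.dir (M.Xf u) f p ^ 2 ≤ (1 - M.vv u p ^ 2) * M.pre.gam f f p := by
  rw [dir_apply, ← M.sum_Xf_sq, gam_apply]
  simpa only [sq] using Finset.sum_mul_sq_le_sq_mul_sq Finset.univ (fun a => M.Xf u a p)
    fun a => M.pre.D a f p

theorem abs_dir_le_sqrt (M : Imm d ι X) (u f : X → ℝ) (p : X) :
    |M.pre.dir (M.Xf u) f p| ≤ √(M.pre.gam f f p) :=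
  Real.abs_le_sqrt ((dir_sq_le M u f p).trans (mul_le_of_le_one_left (gam_self_nonneg _ _)
    (by nlinarith [sq_nonneg (M.vv u p)])))

theorem abs_gD_le (hu : M.Sm u) (f : X → ℝ) (c : Option ι) (p : X) :
    |(M.gS u).D c f p| ≤ √(M.pre.gam f f p) := by
  refine Real.abs_le_sqrt (le_trans ?_ (M.gS_gam_le u f p))
  have := gam_apply (M := M.graph u hu) f f p
  rw [graph_pre] at this
  rw [this, sq]
  exact Finset.single_le_sum (f := fun c => (M.gS u).D c f p * (M.gS u).D c f p)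
    (fun _ _ => mul_self_nonneg _) (Finset.mem_univ c)

theorem abs_gD_u_le (hu : M.Sm u) (c : Option ι) (p : X) : |(M.gS u).D c u p| ≤ 1 := by
  have := gam_apply (M := M.graph u hu) u u p
  rw [graph_pre, gS_gam_u] at this
  have a3 := Finset.single_le_sum (f := fun c => (M.gS u).D c u p * (M.gS u).D c u p)
    (fun _ _ => mul_self_nonneg _) (Finset.mem_univ c)
  refine abs_le_one_iff_mul_self_le_one.2 ?_
  nlinarith [sq_nonneg (M.vv u p)]

/-- the derivative of the right hand side -/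
theorem D_rhs {κ : Type} [Fintype κ] [DecidableEq κ] {G : Imm d κ X} (hu : G.Sm u) (hq : G.Sm q)
    (hk : G.Sm k) (hS : ContDiff ℝ ∞ S) (c : κ) (p : X) :
    G.pre.D c (fun p => q p * (S (u p) - k p)) p = G.pre.D c q p * (S (u p) - k p) +
      q p * (deriv S (u p) * G.pre.D c u p - G.pre.D c k p) := by
  rw [D_mul (hq.diffAt p) (((hu.comp hS).sub hk).diffAt p), D_sub ((hu.comp hS).diffAt p)
    (hk.diffAt p), D_comp (hu.diffAt p) (hS.differentiable (by simp) _).hasDerivAt, add_comm]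

/-- the gain without the second fundamental form -/
def gn (M : Imm d ι X) (F u : X → ℝ) (p : X) : ℝ :=
  M.hF F u p ^ 2 + 2 * M.pre.dir (M.Xf u) (M.hF F u) p

theorem gn_le_gain (M : Imm d ι X) (F u : X → ℝ) (p : X) : gn M F u p ≤ gain M F u p := by
  rw [gn, gain]; linarith [M.a2_nonneg u p]

/-- solutions of `H = q (S (u) - k)` -/
structure Sol (M : Imm d ι X) (F q k : X → ℝ) (S : ℝ → ℝ) (u : X → ℝ) : Prop where
  smq : M.Sm q
  smk : M.Sm k
  smS : ContDiff ℝ ∞ S
  smu : M.Sm u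
  one : ∀ p, 1 ≤ q p
  mono : ∀ t, 0 ≤ deriv S t
  eq : ∀ p, M.hF F u p = q p * (S (u p) - k p)

namespace Sol

variable (h : Sol M F q k S u)
include h

theorem monotone : Monotone S :=
  monotone_of_deriv_nonneg (h.smS.differentiable (by simp)) h.mono

theorem neg : Sol M F q (fun p => -k p) (fun t => -S (-t)) fun p => -u p := by
  refine ⟨h.smq, h.smk.neg, (h.smS.comp contDiff_neg).neg, h.smu.neg, h.one, fun t => ?_,
    fun p => ?_⟩
  · rw [deriv.fun_neg, deriv_comp_neg, neg_neg]; exact h.mono _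
  · rw [hF_neg]; simp only [h.eq, neg_neg]; ring

theorem dir_eq (p : X) : M.pre.dir (M.Xf u) (M.hF F u) p =
    M.pre.dir (M.Xf u) q p * (S (u p) - k p) +
      q p * (deriv S (u p) * M.pre.dir (M.Xf u) u p - M.pre.dir (M.Xf u) k p) := by
  rw [show M.hF F u = _ from funext h.eq]
  simp only [dir_apply, D_rhs h.smu h.smq h.smk h.smS, Finset.mul_sum, Finset.sum_mul,
    ← Finset.sum_sub_distrib, ← Finset.sum_add_distrib]
  exact Finset.sum_congr rfl fun _ _ => by ring

theorem S_le [CompactSpace X] {B : ℝ} (hB : ∀ p, k p ≤ B) (p : X) : S (u p) ≤ B := by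
  obtain ⟨p0, -, h0⟩ := isCompact_univ.exists_isMaxOn ⟨p, mem_univ p⟩ h.smu.continuous.continuousOn
  have h1 := Sq.hF_nonpos h.smu (h0.isLocalMax univ_mem) F
  rw [h.eq] at h1
  have h2 := nonpos_of_mul_nonpos_right h1 (one_pos.trans_le (h.one p0))
  linarith [h.monotone (h0 (mem_univ p)), hB p0]

theorem abs_S_le [CompactSpace X] {B : ℝ} (hB : ∀ p, |k p| ≤ B) (p : X) : |S (u p)| ≤ B := by
  have h1 := h.S_le (fun p => (le_abs_self _).trans (hB p)) p
  have h2 := h.neg.S_le (fun p => (neg_le_abs _).trans (hB p)) p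
  simp only [neg_neg] at h2
  exact abs_le.2 ⟨by linarith, h1⟩

/-- admissibility with an explicit constant -/
theorem adm [CompactSpace X] {B : ℝ} (hS : ∀ t, deriv S t ≤ B) (hq : ∀ p, q p ≤ B)
    (hk : ∀ p, |k p| ≤ B) (hq' : ∀ p, √(M.pre.gam q q p) ≤ B) (hk' : ∀ p, √(M.pre.gam k k p) ≤ B) :
    M.Adm F (4 * B ^ 2) u := by
  have b1 : ∀ p, |S (u p) - k p| ≤ 2 * B := fun p =>
    (abs_sub _ _).trans (by linarith [h.abs_S_le hk p, hk p])
  have b2 : ∀ p, |q p| ≤ B := fun p => (abs_of_pos (one_pos.trans_le (h.one p))).trans_le (hq p)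
  refine ⟨h.smu, fun p => ?_, fun c p => ?_, fun p => ?_⟩
  · rw [h.eq, abs_mul]
    have := mul_le_mul (b2 p) (b1 p) (abs_nonneg _) ((abs_nonneg _).trans (b2 p))
    nlinarith
  · have hB : 0 ≤ B := (abs_nonneg _).trans (b2 p)
    have e := D_rhs (G := M.graph u h.smu) h.smu h.smq h.smk h.smS c p
    rw [graph_pre] at e
    rw [show M.hF F u = _ from funext h.eq, e]
    have a1 := mul_le_mul ((abs_gD_le h.smu q c p).trans (hq' p)) (b1 p) (abs_nonneg _) hB
    have a2 : |deriv S (u p) * (M.gS u).D c u p| ≤ B := by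
      rw [abs_mul, abs_of_nonneg (h.mono _)]
      exact (mul_le_of_le_one_right (h.mono _) (abs_gD_u_le h.smu c p)).trans (hS _)
    have a3 := mul_le_mul (b2 p) ((abs_sub _ _).trans
      (add_le_add a2 ((abs_gD_le h.smu k c p).trans (hk' p)))) (abs_nonneg _) hB
    refine (abs_add_le _ _).trans ?_
    rw [abs_mul, abs_mul]
    linarith
  · have hB : 0 ≤ B := (abs_nonneg _).trans (b2 p)
    have a1 := mul_le_mul ((abs_dir_le_sqrt M u q p).trans (hq' p)) (b1 p) (abs_nonneg _) hB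
    have a2 := mul_le_mul (b2 p) ((abs_dir_le_sqrt M u k p).trans (hk' p)) (abs_nonneg _) hB
    have a3 := mul_nonneg (zero_le_one.trans (h.one p)) (mul_nonneg (h.mono (u p))
      (dir_u_nonneg M u p))
    rw [← abs_mul] at a1 a2
    rw [h.dir_eq]
    nlinarith [neg_abs_le (M.pre.dir (M.Xf u) q p * (S (u p) - k p)),
      le_abs_self (q p * M.pre.dir (M.Xf u) k p)]

/-- gain in the stiff zone: the wall `q` is free -/
theorem gn_stiff {p : X} {A : ℝ} (hA : 0 < A) (hS : A ≤ deriv S (u p))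
    (hq : M.pre.gam q q p ≤ A * q p ^ 3) : -(q p * M.pre.gam k k p / A) ≤ gn M F u p := by
  have q0 := one_pos.trans_le (h.one p)
  have x0 : 0 ≤ 1 - M.vv u p ^ 2 := by nlinarith [M.vv_pos u p, M.vv_le_one u p]
  have a1 := (dir_sq_le M u q p).trans (mul_le_mul_of_nonneg_left hq x0)
  have a2 := dir_sq_le M u k p
  have a3 : A * (1 - M.vv u p ^ 2) ≤ deriv S (u p) * M.pre.dir (M.Xf u) u p :=
    mul_le_mul hS (sq_le_dir M u p) x0 (h.mono _)
  rw [gn, h.dir_eq, h.eq]
  set ξ := 1 - M.vv u p ^ 2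
  set y := S (u p) - k p
  set α := M.pre.dir (M.Xf u) q p
  set β := M.pre.dir (M.Xf u) k p
  set g := M.pre.gam k k p
  have g0 : 0 ≤ g := gam_self_nonneg _ _
  have b1 : 0 ≤ (q p * y) ^ 2 + 2 * (α * y) + q p * (A * ξ) := by
    refine le_of_mul_le_mul_left ?_ (pow_pos q0 2)
    nlinarith [sq_nonneg (q p ^ 2 * y + α)]
  have b2 : 2 * β ≤ A * ξ + g / A := by
    refine le_of_sq_le_sq (le_trans ?_ (four_mul_le_sq_add _ _)) (by positivity)
    have : A * ξ * (g / A) = ξ * g := by field_simp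
    nlinarith
  have b3 := mul_le_mul_of_nonneg_left b2 q0.le
  have b4 := mul_le_mul_of_nonneg_left a3 q0.le
  rw [mul_div_assoc]
  nlinarith


/-- gain in the soft zone, off the wall -/
theorem gn_soft {p : X} {σ : ℝ} (hS : |S (u p)| ≤ σ) (h1 : q p = 1) (hq : M.pre.gam q q p = 0) :
    k p ^ 2 - 2 * |M.pre.dir (M.Xf u) k p| - 2 * σ * |k p| ≤ gn M F u p := by
  have a1 := abs_dir_le_sqrt M u q p
  rw [hq, Real.sqrt_zero, abs_nonpos_iff] at a1
  have a2 : S (u p) * k p ≤ σ * |k p| :=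
    (le_abs_self _).trans ((abs_mul _ _).trans_le (mul_le_mul_of_nonneg_right hS (abs_nonneg _)))
  rw [gn, h.dir_eq, h.eq, a1, h1]
  nlinarith [mul_nonneg (h.mono (u p)) (dir_u_nonneg M u p),
    le_abs_self (M.pre.dir (M.Xf u) k p), sq_nonneg (S (u p))]



end Sol

/-- **barrier** for solutions -/
theorem sol_bar [T2Space X] [CompactSpace X] (hi : Injective M.x) (hF : M.Sm F) :
    ∃ r0 C : ℝ, 0 < r0 ∧ 0 < C ∧ ∀ q k S u, Sol M F q k S u → ∀ (r a : ℝ) (p : X), 0 < r → r ≤ r0 →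
      ((∀ p', ‖M.x p' - M.x p‖ < r → a ≤ k p') → a - C / r ≤ S (u p)) ∧
      ((∀ p', ‖M.x p' - M.x p‖ < r → k p' ≤ a) → S (u p) ≤ a + C / r) := by
  obtain ⟨r0, C, h0, hC, H⟩ := bar_lo hi hF
  have key : ∀ q k S u, Sol M F q k S u → ∀ (r a : ℝ) (p : X), 0 < r → r ≤ r0 →
      (∀ p', ‖M.x p' - M.x p‖ < r → a ≤ k p') → a - C / r ≤ S (u p) := by
    intro q k S u h r a p hr hr0 ha
    obtain ⟨p', p1, p2, p3⟩ := H u r p h.smu hr hr0
    rw [h.eq] at p3
    have h1 := h.monotone p2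
    have h2 := ha p' p1
    have h3 := h.one p'
    have h4 : 0 < C / r := by positivity
    by_contra hn
    nlinarith
  refine ⟨r0, C, h0, hC, fun q k S u h r a p hr hr0 => ⟨key q k S u h r a p hr hr0, fun ha => ?_⟩⟩
  have := key _ _ _ _ h.neg r (-a) p hr hr0 fun p' hp' => neg_le_neg (ha p' hp')
  simp only [neg_neg] at this
  linarith

variable [T2Space X] [SecondCountableTopology X] [BorelSpace X] [CompactSpace X]

/-- **The weak sequence**: long soft zones contain thin slabs. -/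
theorem exists_wseq {S : ℕ → ℝ → ℝ} {u : ℕ → X → ℝ} {τ L : ℕ → ℝ} {B : ℝ}
    (h : ∀ j, Sol M F q k (S j) (u j)) (hB : ∀ j t, deriv (S j) t ≤ B) (hτ : ∀ j, 0 < τ j)
    (hL0 : ∀ j, 0 ≤ L j) (hS : ∀ j t, |t| ≤ L j → S j t = τ j * t) (hL : Tendsto L atTop atTop)
    (hτL : Tendsto (fun j => τ j * L j) atTop (𝓝 0))
    (hq : ∀ᶠ j in atTop, ∀ p, |u j p| ≤ L j → q p = 1) :
    ∃ (Λ : ℝ) (𝒰 : Ultrafilter ℕ) (a : ℕ → ℝ), (𝒰 : Filter ℕ) ≤ atTop ∧
      (∀ j, 0 ≤ a j ∧ a j ≤ L j / 2) ∧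
      WSeq M F k Λ 𝒰 (fun j p => u j p + -a j) τ fun j => τ j * a j := by
  obtain ⟨B1, -, b1⟩ := exists_bound (h 0).smq.continuous
  obtain ⟨B2, -, b2⟩ := exists_bound (h 0).smk.continuous
  obtain ⟨B3, -, b3⟩ := exists_bound ((h 0).smq.gam (h 0).smq).continuous.sqrt
  obtain ⟨B4, -, b4⟩ := exists_bound ((h 0).smk.gam (h 0).smk).continuous.sqrt
  set n : ℕ → ℕ := fun j => ⌊√(L j / 6)⌋₊ - 1 with hn
  have ln : Tendsto n atTop atTop := (tendsto_sub_atTop_nat 1).comp (tendsto_nat_floor_atTop.comp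
    (Real.tendsto_sqrt_atTop.comp (hL.atTop_div_const (by norm_num))))
  choose i hi mi using fun j => Sq.slab M.mu (h j).smu.continuous.measurable (n j)
  set a : ℕ → ℝ := fun j => 3 * (n j + 1) * i j with ha
  have a0 : ∀ j, 0 ≤ a j := fun j => by positivity
  have a1 : ∀ j, a j ≤ L j / 2 := fun j => by
    have e1 : (n j + 1) * i j ≤ ⌊√(L j / 6)⌋₊ ^ 2 := by
      have := hi j
      rcases Nat.eq_zero_or_pos ⌊√(L j / 6)⌋₊ with h0 | h0
      · have : i j = 0 := by simp only [hn, h0] at this; omega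
        simp [this]
      · have e : n j + 1 = ⌊√(L j / 6)⌋₊ := by simp only [hn]; omega
        rw [← e, sq]; exact Nat.mul_le_mul_left _ (by omega)
    have e2 : ((n j : ℝ) + 1) * i j ≤ (⌊√(L j / 6)⌋₊ : ℝ) ^ 2 := by exact_mod_cast e1
    have e3 := pow_le_pow_left₀ (Nat.cast_nonneg _) (Nat.floor_le (Real.sqrt_nonneg (L j / 6))) 2
    rw [Real.sq_sqrt (by linarith [hL0 j])] at e3
    simp only [ha]; linarith
  have hU : ((hyperfilter ℕ : Ultrafilter ℕ) : Filter ℕ) ≤ atTop :=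
    hyperfilter_le_cofinite.trans Nat.cofinite_eq_atTop.le
  refine ⟨4 * (max (max B B1) (max B2 (max B3 B4))) ^ 2, hyperfilter ℕ, a, hU,
    fun j => ⟨a0 j, a1 j⟩, (h 0).smk, fun j => ((h j).adm (fun t => (hB j t).trans (by simp))
      (fun p => ((le_abs_self _).trans (b1 p)).trans (by simp)) (fun p => (b2 p).trans (by simp))
      (fun p => ((le_abs_self _).trans (b3 p)).trans (by simp))
      fun p => ((le_abs_self _).trans (b4 p)).trans (by simp)).add_const _, hτ, ?_, ?_,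
    fun T => ?_, fun T => ?_⟩
  · refine (squeeze_zero' (.of_forall fun j => (hτ j).le) ?_ hτL).mono_left hU
    filter_upwards [hL.eventually_ge_atTop 1] with j hj using le_mul_of_one_le_right (hτ j).le hj
  · exact (squeeze_zero (fun j => mul_nonneg (hτ j).le (a0 j)) (fun j =>
      mul_le_mul_of_nonneg_left (by linarith [a1 j, hL0 j]) (hτ j).le) hτL).mono_left hU
  · filter_upwards [hU hq, hU (hL.eventually_ge_atTop (2 * T))] with j j1 j2 p hp
    have e : |u j p| ≤ L j := by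
      rw [abs_le] at hp ⊢
      constructor <;> linarith [hp.1, hp.2, a0 j, a1 j]
    rw [hF_add_const, (h j).eq, j1 p e, hS j _ e]; ring
  · have l1 : Tendsto (fun j => M.mu.real univ * (1 / ((n j : ℝ) + 1))) atTop (𝓝 0) := by
      simpa using (tendsto_one_div_add_atTop_nhds_zero_nat.comp ln).const_mul (M.mu.real univ)
    refine (squeeze_zero' (.of_forall fun _ => measureReal_nonneg) ?_ l1).mono_left hU
    filter_upwards [ln.eventually_ge_atTop ⌈T⌉₊] with j hj
    refine le_trans (measureReal_mono fun p hp => ?_) ((mi j).trans (le_of_eq (by field_simp)))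
    have e1 : T ≤ n j := (Nat.le_ceil T).trans (by exact_mod_cast hj)
    have e2 : |u j p + -a j| ≤ T := hp
    show |u j p - a j| ≤ n j + 1
    rw [sub_eq_add_neg]
    linarith

end Crest.Agent.N228.Nk

end
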