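import Crest.Agent.N228.J.Sol
import Crest.Agent.N222.B.Seq
import Crest.Agent.N222.F.Bump
import Crest.Agent.N228.Nk.Sol
import Crest.Agent.N228.Nk.Prof
import Crest.Agent.N228.I.Wall
import Crest.Agent.N228.J.Fam

-- ▼ part N228/J/Wall
section

/-!
# Row 228, solver layer (helper41): walls

`wall_lo`, `wall_hi` : equation free local barriers.  `wall_le`, `wall_ge` : a stiff zone pins the
solution.
-/

set_option autoImplicit false
set_option linter.unusedSectionVars false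
open Set Filter Topology Function Metric
open scoped ContDiff
open Crest.Agent.N222

noncomputable section

namespace Crest.Agent.N228.J

variable {d : ℕ} {ι : Type} [Fintype ι] [DecidableEq ι] {X : Type} [TopologicalSpace X]
  [T2Space X] [SecondCountableTopology X] {M : Imm d ι X} {b : ι → X → ℝ}

/-- a cap function around a point -/
theorem exists_cap (M : Imm d ι X) {N : Set X} (hN : IsOpen N) {p0 : X} (hp : p0 ∈ N) :
    ∃ (σ : X → ℝ) (K : Set X), M.Sm σ ∧ IsCompact K ∧ K ⊆ N ∧ p0 ∈ K ∧ σ p0 = 1 ∧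
      ∀ q ∈ K, σ q ≤ 1 ∧ (0 < σ q → K ∈ 𝓝 q) ∧ 0 < σ q ^ 2 + M.pre.gam σ σ q := by
  set e := M.ch p0 with he
  have hc := M.isChart p0
  have ho : IsOpen (e.target ∩ e.symm ⁻¹' N) := e.isOpen_inter_preimage_symm hN
  obtain ⟨r, hr, hsub⟩ := Metric.nhds_basis_closedBall.mem_iff.1
    (ho.mem_nhds (⟨e.map_source (M.mem p0), by
      rw [mem_preimage, e.left_inv (M.mem p0)]; exact hp⟩ : e p0 ∈ e.target ∩ e.symm ⁻¹' N))
  set g : E (Fin d) → ℝ := fun z => 1 - ‖z - e p0‖ ^ 2 / r ^ 2 with hg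
  have sg : ContDiff ℝ ∞ g :=
    contDiff_const.sub (((contDiff_id.sub contDiff_const).norm_sq ℝ).div_const _)
  have hK : IsCompact (e.symm '' closedBall (e p0) r) :=
    (isCompact_closedBall _ _).image_of_continuousOn
      (e.continuousOn_symm.mono fun z hz => (hsub hz).1)
  have hKs : e.symm '' closedBall (e p0) r ⊆ e.source := by
    rintro _ ⟨z, hz, rfl⟩; exact e.map_target (hsub hz).1
  obtain ⟨σ, sσ, -, -, hσ⟩ := ((Imm.smOn_chart hc).comp (g := g) fun _ _ => sg.contDiffAt).exists_sm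
    e.open_source hK hKs
  have hσ' : ∀ q ∈ e.symm '' closedBall (e p0) r, σ =ᶠ[𝓝 q] fun p => g (e p) := fun q hq =>
    hσ.filter_mono (nhds_le_nhdsSet hq)
  have hp0 : p0 ∈ e.symm '' closedBall (e p0) r :=
    ⟨_, mem_closedBall_self hr.le, e.left_inv (M.mem p0)⟩
  refine ⟨σ, _, sσ, hK, ?_, hp0, ?_, ?_⟩
  · rintro _ ⟨z, hz, rfl⟩; exact (hsub hz).2
  · rw [(hσ' _ hp0).eq_of_nhds]; simp [hg]
  · intro q hq
    have hqs := hKs hq
    have e1 : σ q = 1 - ‖e q - e p0‖ ^ 2 / r ^ 2 := (hσ' q hq).eq_of_nhds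
    refine ⟨by rw [e1]; exact sub_le_self _ (by positivity), fun h => ?_, ?_⟩
    · have h1 : e q ∈ ball (e p0) r := by
        rw [e1, sub_pos, div_lt_one (by positivity)] at h
        exact mem_ball_iff_norm.2 (lt_of_pow_lt_pow_left₀ 2 hr.le h)
      filter_upwards [e.open_source.mem_nhds hqs,
        (e.continuousAt hqs).eventually (isOpen_ball.mem_nhds h1)] with y hy hy'
      exact ⟨e y, ball_subset_closedBall hy', e.left_inv hy⟩
    · rcases eq_or_ne (σ q) 0 with h0 | h0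
      · refine add_pos_of_nonneg_of_pos (sq_nonneg _)
          ((Imm.gam_self_nonneg σ q).lt_of_ne fun h => ?_)
        have h2 : M.td σ q = 0 := by
          rw [Imm.gam_self_eq, eq_comm, pow_eq_zero_iff two_ne_zero, ← Imm.norm_td] at h
          exact norm_eq_zero.1 h
        have h3 := Imm.fderiv_chart σ hc hqs
        have h4 : σ ∘ e.symm =ᶠ[𝓝 (e q)] g := by
          filter_upwards [symm_eventuallyEq hqs (hσ' q hq),
            e.open_target.mem_nhds (e.map_source hqs)] with z hz hz'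
          rw [hz, comp_apply, e.right_inv hz']
        have h5 : HasFDerivAt g (-((r ^ 2)⁻¹ • (2 : ℕ) • (innerSL ℝ (e q - e p0)).comp
            (ContinuousLinearMap.id ℝ _))) (e q) := by
          have := ((((hasFDerivAt_id (e q)).sub_const (e p0)).norm_sq).const_mul
            (r ^ 2)⁻¹).const_sub 1
          refine this.congr_of_eventuallyEq (Eventually.of_forall fun z => ?_)
          simp only [hg, id, div_eq_inv_mul]
        rw [h4.fderiv_eq, h5.fderiv, h2, ContinuousLinearMap.zero_comp] at h3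
        have h6 := congrArg (fun T : E (Fin d) →L[ℝ] ℝ => T (e q - e p0)) h3
        simp only [neg_apply, smul_apply, ContinuousLinearMap.comp_apply,
          ContinuousLinearMap.id_apply, innerSL_apply_apply, real_inner_self_eq_norm_sq,
          zero_apply, smul_eq_mul, nsmul_eq_mul, neg_eq_zero, mul_eq_zero, inv_eq_zero] at h6
        have h7 : ‖e q - e p0‖ ^ 2 = 0 := by
          rcases h6 with h | h | h
          · exact absurd h (by positivity)
          · norm_num at h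
          · exact h
        rw [e1, h7] at h0
        simp at h0
      · exact add_pos_of_pos_of_nonneg (by positivity) (Imm.gam_self_nonneg σ q)

theorem wall_real {r s g G v m K L D : ℝ} (hr : 0 < r) (hr1 : r ≤ 1) (hs : 0 < s) (hv : 0 < v)
    (hv1 : v ≤ 1) (hm : 0 < m) (hK : 0 ≤ K) (h1 : m ^ 2 ≤ s ^ 2 + G)
    (h2 : r ^ 2 * G = s ^ 2 * g) (h3 : v ^ 2 * (1 + g) = 1) (h4 : -K ≤ L)
    (h5 : r ^ 2 * v * L ≤ r * s * D + s * (v * (1 - v ^ 2))) : -(K / m + 1 / r) ≤ D := by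
  have a1 : (r * v * m) ^ 2 ≤ s ^ 2 := by
    have b1 : r ^ 2 * s ^ 2 ≤ s ^ 2 := mul_le_of_le_one_left (sq_nonneg _) (pow_le_one₀ hr.le hr1)
    have b2 : r ^ 2 * m ^ 2 ≤ s ^ 2 * (1 + g) := by
      nlinarith [mul_le_mul_of_nonneg_left h1 (sq_nonneg r)]
    calc (r * v * m) ^ 2 = v ^ 2 * (r ^ 2 * m ^ 2) := by ring
      _ ≤ v ^ 2 * (s ^ 2 * (1 + g)) := mul_le_mul_of_nonneg_left b2 (sq_nonneg v)
      _ = s ^ 2 := by linear_combination s ^ 2 * h3
  have a2 : r * v * m ≤ s := (abs_le_of_sq_le_sq' a1 hs.le).2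
  have a3 : v * (1 - v ^ 2) ≤ 1 := by nlinarith [mul_pos hv (pow_pos hv 2)]
  have a4 : r * v * K ≤ s * (K / m) := by
    rw [mul_div_assoc', le_div_iff₀ hm]
    nlinarith [mul_le_mul_of_nonneg_right a2 hK]
  refine le_of_mul_le_mul_left ?_ (mul_pos hr hs)
  have a5 := mul_le_mul_of_nonneg_left h4 (mul_nonneg (sq_nonneg r) hv.le)
  have a6 := mul_le_mul_of_nonneg_left a3 hs.le
  have a7 := mul_le_mul_of_nonneg_left a4 hr.le
  have a8 : r * s * (1 / r) = s := by field_simp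
  nlinarith

theorem wall_pt (hb : ∀ a, M.Sm (b a)) {N : Set X} (hN : IsOpen N) {p0 : X} (hp : p0 ∈ N) {ε : ℝ}
    (hε : 0 < ε) : ∃ N' ∈ 𝓝 p0, ∃ C : ℝ, ∀ u, M.Sm u → ∀ p ∈ N',
      ∃ q ∈ N, u q ≤ u p + ε ∧ -C ≤ QQ M b u q := by
  let _ : MeasurableSpace X := ⊥
  obtain ⟨σ, K, sσ, hK, hKN, hp0, h1, H⟩ := exists_cap M hN hp
  obtain ⟨m, hm, Hm⟩ := hK.exists_forall_le' (f := fun q => σ q ^ 2 + M.pre.gam σ σ q)
    ((sσ.pow 2).add (sσ.gam sσ)).continuous.continuousOn (a := 0) fun q hq => (H q hq).2.2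
  obtain ⟨B, hB⟩ := hK.exists_bound_of_continuousOn
    (f := fun q => ((fun k : ι × ι => M.pre.hess σ k.1 k.2 q), fun a => b a q))
    ((continuous_pi fun k : ι × ι => (sσ.hess k.1 k.2).continuous).prodMk
      (continuous_pi fun a => (hb a).continuous)).continuousOn
  have hB0 : 0 ≤ B := (norm_nonneg _).trans (hB p0 hp0)
  set r := min 1 ε with hr
  have hr0 : 0 < r := lt_min one_pos hε
  refine ⟨K ∩ {p | 1 / 2 < σ p}, inter_mem ((H p0 hp0).2.1 (by rw [h1]; exact one_pos))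
    ((isOpen_lt continuous_const sσ.continuous).mem_nhds (by rw [mem_ofPred_eq, h1]; norm_num)),
    (Fintype.card ι * B + Fintype.card ι * (Fintype.card ι * B)) / √m + 1 / r + Fintype.card ι * B,
    fun u hu p hp => ?_⟩
  obtain ⟨q, hq, hmax⟩ := hK.exists_isMaxOn ⟨p, hp.1⟩
    (sσ.mul ((Imm.sm_const (-r⁻¹)).mul hu).exp).continuous.continuousOn
  have h2 : σ p * Real.exp (-r⁻¹ * u p) ≤ σ q * Real.exp (-r⁻¹ * u q) := hmax hp.1
  have h3 : 1 / 2 * Real.exp (-r⁻¹ * u p) ≤ σ q * Real.exp (-r⁻¹ * u q) :=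
    (mul_le_mul_of_nonneg_right (le_of_lt hp.2) (Real.exp_pos _).le).trans h2
  have hs : 0 < σ q := (mul_pos_iff_of_pos_right (Real.exp_pos _)).1
    ((mul_pos one_half_pos (Real.exp_pos _)).trans_le h3)
  obtain ⟨c1, c2⟩ := Sq.max_cond sσ hu hr0 (hmax.isLocalMax ((H q hq).2.1 hs))
  refine ⟨q, hKN hq, ?_, ?_⟩
  · have a1 : Real.exp (-1) ≤ 1 / 2 := by
      rw [Real.exp_neg, one_div]
      exact inv_anti₀ two_pos (by linarith [Real.add_one_le_exp (1 : ℝ)])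
    have a2 : Real.exp (-1 + -r⁻¹ * u p) ≤ Real.exp (-r⁻¹ * u q) := by
      rw [Real.exp_add]
      exact ((mul_le_mul_of_nonneg_right a1 (Real.exp_pos _).le).trans h3).trans
        (mul_le_of_le_one_left (Real.exp_pos _).le (H q hq).1)
    have a3 := mul_le_mul_of_nonneg_left (Real.exp_le_exp.1 a2) hr0.le
    have a4 : r * r⁻¹ = 1 := mul_inv_cancel₀ hr0.ne'
    have a5 : r ≤ ε := min_le_right _ _
    have a6 : r * (-1 + -r⁻¹ * u p) = -r - u p := by linear_combination (-u p) * a4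
    have a7 : r * (-r⁻¹ * u q) = -u q := by linear_combination (-u q) * a4
    linarith
  · have b1 : ∀ a c, |M.pre.hess σ a c q| ≤ B := fun a c =>
      (norm_le_pi_norm (fun k : ι × ι => M.pre.hess σ k.1 k.2 q) (a, c)).trans
        ((norm_fst_le _).trans (hB q hq))
    have b2 : ∀ a, |b a q| ≤ B := fun a =>
      (norm_le_pi_norm (fun a => b a q) a).trans ((norm_snd_le _).trans (hB q hq))
    have b3 : r ^ 2 * M.pre.gam σ σ q = σ q ^ 2 * M.pre.gam u u q := by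
      rw [Imm.gam_apply, Imm.gam_apply, Finset.mul_sum, Finset.mul_sum]
      refine Finset.sum_congr rfl fun a _ => ?_
      linear_combination (r * M.pre.D a σ q + σ q * M.pre.D a u q) * c1 a
    have b4 := wall_real hr0 (min_le_left _ _) hs (M.vv_pos u q) (M.vv_le_one u q)
      (Real.sqrt_pos.2 hm) (by positivity)
      ((Real.sq_sqrt hm.le).le.trans (Hm q hq)) b3 (M.vv_sq u q) (Sq.L_ge b1 u) c2
    have b5 : ∑ a, -(M.Xf u a q * b a q) ≤ Fintype.card ι * B := by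
      refine (Finset.sum_le_card_nsmul _ _ B fun a _ => ?_).trans (by simp)
      refine (neg_le_abs _).trans ?_
      rw [abs_mul]
      exact (mul_le_of_le_one_left (abs_nonneg _) (Sq.abs_Xf_le M u a q)).trans (b2 a)
    rw [Finset.sum_neg_distrib] at b5
    rw [QQ_apply]
    linarith

/-- **WALL**, from below -/
theorem wall_lo (hb : ∀ a, M.Sm (b a)) {K N : Set X} (hK : IsCompact K) (hN : IsOpen N)
    (hKN : K ⊆ N) {ε : ℝ} (hε : 0 < ε) : ∃ C : ℝ, 0 < C ∧ ∀ u, M.Sm u → ∀ p ∈ K,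
      ∃ q ∈ N, u q ≤ u p + ε ∧ -C ≤ QQ M b u q := by
  refine hK.induction_on (p := fun s => ∃ C : ℝ, 0 < C ∧ ∀ u, M.Sm u → ∀ p ∈ s,
    ∃ q ∈ N, u q ≤ u p + ε ∧ -C ≤ QQ M b u q) ⟨1, one_pos, fun _ _ _ h => h.elim⟩
    (fun s t hst ⟨C, h0, h⟩ => ⟨C, h0, fun u hu p hp => h u hu p (hst hp)⟩)
    (fun s t ⟨C, h0, h⟩ ⟨C', _, h'⟩ => ⟨max C C', lt_max_of_lt_left h0, fun u hu p hp => ?_⟩)
    fun p hp => ?_
  · rcases hp with hp | hp
    · obtain ⟨q, hq, h1, h2⟩ := h u hu p hp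
      exact ⟨q, hq, h1, (neg_le_neg (le_max_left _ _)).trans h2⟩
    · obtain ⟨q, hq, h1, h2⟩ := h' u hu p hp
      exact ⟨q, hq, h1, (neg_le_neg (le_max_right _ _)).trans h2⟩
  · obtain ⟨N', hN', C, h⟩ := wall_pt hb hN (hKN hp) hε
    refine ⟨N', mem_nhdsWithin_of_mem_nhds hN', max 1 C, lt_max_of_lt_left one_pos,
      fun u hu p hp => ?_⟩
    obtain ⟨q, hq, h1, h2⟩ := h u hu p hp
    exact ⟨q, hq, h1, (neg_le_neg (le_max_right _ _)).trans h2⟩

/-- **WALL**, from above -/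
theorem wall_hi (hb : ∀ a, M.Sm (b a)) {K N : Set X} (hK : IsCompact K) (hN : IsOpen N)
    (hKN : K ⊆ N) {ε : ℝ} (hε : 0 < ε) : ∃ C : ℝ, 0 < C ∧ ∀ u, M.Sm u → ∀ p ∈ K,
      ∃ q ∈ N, u p ≤ u q + ε ∧ QQ M b u q ≤ C := by
  obtain ⟨C, h0, h⟩ := wall_lo hb hK hN hKN hε
  refine ⟨C, h0, fun u hu p hp => ?_⟩
  obtain ⟨q, hq, h1, h2⟩ := h _ hu.neg p hp
  rw [QQ_neg] at h2
  exact ⟨q, hq, by linarith, by linarith⟩

/-- a stiff zone bounds the function from above -/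
theorem wall_le (hb : ∀ a, M.Sm (b a)) {K N : Set X} (hK : IsCompact K) (hN : IsOpen N)
    (hKN : K ⊆ N) {ε : ℝ} (hε : 0 < ε) : ∃ C : ℝ, 0 < C ∧ ∀ (u : X → ℝ) (t : ℝ), M.Sm u →
      (∀ q ∈ N, t ≤ u q → C < QQ M b u q) → ∀ p ∈ K, u p < t + ε := by
  obtain ⟨C, h0, h⟩ := wall_hi hb hK hN hKN hε
  refine ⟨C, h0, fun u t hu H p hp => ?_⟩
  obtain ⟨q, hq, h1, h2⟩ := h u hu p hp
  have : u q < t := lt_of_not_ge fun h3 => absurd (H q hq h3) (not_lt.2 h2)
  linarith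


end Crest.Agent.N228.J

end
end

-- ▼ part N228/Nk/Loc
section

/-!
# Row 228, necks (helper16): cutting off a solution behind a wall
-/

set_option autoImplicit false
set_option linter.unusedSectionVars false
open MeasureTheory Set Filter Topology Function
open scoped ContDiff
open Crest.Agent.N222 Crest.Agent.N222.Imm Crest.Agent.N228.J Crest.Agent.N228.I

noncomputable section

namespace Crest.Agent.N228.Nk

variable {d : ℕ} {ι : Type} [Fintype ι] [DecidableEq ι] {X : Type} [TopologicalSpace X]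
  [MeasurableSpace X] {M : Imm d ι X} {F u w θ : X → ℝ} {p : X}

theorem hF_ev (h : u =ᶠ[𝓝 p] w) (F : X → ℝ) : M.hF F u =ᶠ[𝓝 p] M.hF F w :=
  h.eventuallyEq_nhds.mono fun _ hq => hF_congr hq F

theorem dir_congr (h : u =ᶠ[𝓝 p] w) {f g : X → ℝ} (e : f =ᶠ[𝓝 p] g) :
    M.pre.dir (M.Xf u) f p = M.pre.dir (M.Xf w) g p := by
  simp only [dir_apply, Xf_congr h, D_congr e]

theorem gD_congr (h : u =ᶠ[𝓝 p] w) {f g : X → ℝ} (e : f =ᶠ[𝓝 p] g) (c : Option ι) :
    (M.gS u).D c f p = (M.gS w).D c g p := by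
  rw [gS_D_apply, gS_D_apply, dir_congr h e]
  cases c with
  | none => rw [nu_none, nu_none, vv_congr h]; rfl
  | some a => rw [nu_some, nu_some, Xf_congr h]; simp only [Option.elim, D_congr e]

theorem gn_congr (h : u =ᶠ[𝓝 p] w) : gn M F u p = gn M F w p := by
  rw [gn, gn, hF_congr h, dir_congr h (hF_ev h F)]

theorem gn_add_const (M : Imm d ι X) (F u : X → ℝ) (t : ℝ) :
    gn M F (fun p => u p + t) = gn M F u := by
  funext p
  rw [gn, gn, hF_add_const, Xf_add_const]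

theorem hF_const (M : Imm d ι X) (F : X → ℝ) (s : ℝ) : M.hF F (fun _ => s) = fun _ => 0 :=
  funext fun p => by rw [← QQ_grad, QQ_const]

/-- a cut-off of a small solution is small in `C³` -/
theorem cut_jet {U K : Set X} (hU : IsOpen U) (hF : M.Sm F) {A : ℝ} (hA : 0 < A) {χ : X → ℝ}
    (hχ : M.Sm χ) (hK : IsCompact K) (hKU : K ⊆ U) {ε : ℝ} (hε : 0 < ε) :
    ∃ δ > 0, ∀ u, M.Sm u → (∀ p ∈ U, M.hF F u p = A * u p ∧ |u p| < δ) → ∀ p ∈ K,
      |M.hF F (fun q => χ q * u q) p| ≤ ε ∧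
      |M.pre.dir (M.Xf fun q => χ q * u q) (M.hF F fun q => χ q * u q) p| ≤ ε ∧
      ∀ c, |(M.gS fun q => χ q * u q).D c (M.hF F fun q => χ q * u q) p| ≤ ε := by
  let T := {u : X → ℝ // M.Sm u ∧ ∀ p ∈ U, M.hF F u p = A * u p}
  let t0 : T := ⟨fun _ => 0, sm_const 0, fun p _ => by rw [hF_const, mul_zero]⟩
  have hΦ : J.Good (fun z : ℝ × ℝ × ℝ => A * z.2.1) univ univ :=
    ⟨isOpen_univ, ordConnected_univ, by fun_prop, fun _ _ t _ _ _ => by
      rwa [(hasDerivAt_const_mul A (x := t)).deriv]⟩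
  have h1 : JC M.atl U fun t : Un U (Subtype.val : T → _) => (t : T).1 :=
    loc (c := fun _ => 0) rfl hU (fun a => hF.D a) hΦ
      (((M.smOn_univ rfl).2 (sm_const 0)).mono (subset_univ _))
      (fun t => ((M.smOn_univ rfl).2 t.2.1).mono (subset_univ _))
      (fun _ _ _ => ⟨mem_univ _, mem_univ _⟩) fun t p hp => by rw [QQ_grad]; exact t.2.2 p hp
  have h2 := (JC.of_sm rfl hU hχ).mul h1
  have hM : Fm M.atl U fun _ : Un U (Subtype.val : T → _) => M := Fm.fixed M rfl hU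
  have h3 := hM.pj.hF (JC.of_sm rfl hU hF) h2 (hM.vv h2)
  have h4 := h3.prodMk ((hM.pj.dir (hM.pj.Xf h2 (hM.vv h2)) h3).prodMk
    (JC.pi hU fun c => (hM.gS h2).D c h3))
  obtain ⟨δ, hδ, h⟩ := Un.eventually_iff.1 (h4.eventually_norm hK hKU t0 hε)
  refine ⟨δ, hδ, fun u hu h5 p hp => ?_⟩
  have h6 := h ⟨u, hu, fun p hp => (h5 p hp).1⟩ (fun p hp => by simpa [t0] using (h5 p hp).2) p hp
  have e : (fun q => χ q * t0.1 q) = fun _ => 0 := funext fun q => mul_zero _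
  change ‖(M.hF F _ p, M.pre.dir (M.Xf _) (M.hF F _) p, fun c => (M.gS _).D c (M.hF F _) p) -
    (M.hF F (fun q => χ q * t0.1 q) p, M.pre.dir (M.Xf fun q => χ q * t0.1 q)
      (M.hF F fun q => χ q * t0.1 q) p, fun c => (M.gS fun q => χ q * t0.1 q).D c
        (M.hF F fun q => χ q * t0.1 q) p)‖ < ε at h6
  have e1 : ∀ v, M.pre.dir (M.Xf v) (fun _ => 0) p = 0 := fun v => by
    simp only [dir_apply, D_const, mul_zero, Finset.sum_const_zero]
  have e2 : ∀ v c, (M.gS v).D c (fun _ => 0) p = 0 := fun v c => by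
    rw [gS_D_apply, e1]; cases c <;> simp [D_const]
  simp only [e, hF_const, e1, e2, Prod.mk_sub_mk, sub_zero, Prod.norm_mk, max_lt_iff] at h6
  exact ⟨h6.1.le, h6.2.1.le, fun c =>
    (congrArg abs (sub_zero _).symm).trans_le ((pi_norm_lt_iff hε).1 h6.2.2 c).le⟩

variable [T2Space X] [SecondCountableTopology X] [CompactSpace X]

/-- a high wall pins the solution -/
theorem pin (hF : M.Sm F) (hθ : M.Sm θ) {A δ : ℝ} (hA : 0 < A) (hδ : 0 < δ) :
    ∃ η, 0 < η ∧ η ≤ 1 ∧ ∀ u, M.Sm u →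
      (∀ p, θ p < 1 → M.hF F u p = wq η (θ p) * (A * u p)) → ∀ p, θ p ≤ 19 / 32 → |u p| < δ := by
  have hc := hθ.continuous
  obtain ⟨C, -, H⟩ := wall_le (K := {p | θ p = 19 / 32}) (N := {p | 9 / 16 < θ p ∧ θ p < 5 / 8})
    (fun a => hF.D a) (isClosed_eq hc continuous_const).isCompact
    ((isOpen_lt continuous_const hc).inter (isOpen_lt hc continuous_const))
    (fun p hp => by rw [mem_setOf_eq] at hp ⊢; rw [hp]; norm_num) (half_pos hδ)
  obtain ⟨η, h0, h1, h2⟩ := exists_wq (C := C + 1) (mul_pos hA (half_pos hδ))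
  have key : ∀ u, M.Sm u → (∀ p, θ p < 1 → M.hF F u p = wq η (θ p) * (A * u p)) →
      ∀ p, θ p ≤ 19 / 32 → u p < δ := by
    intro u hu he p hp
    obtain ⟨q, hq, hm⟩ := (isClosed_le hc continuous_const).isCompact.exists_isMaxOn ⟨p, hp⟩
      hu.continuous.continuousOn
    refine (hm hp).trans_lt ?_
    rcases (show θ q ≤ _ from hq).eq_or_lt with h3 | h3
    · refine (H u (δ / 2) hu (fun x hx h4 => ?_) q h3).trans_eq (add_halves δ)
      rw [QQ_grad, he x (by linarith [hx.2]), wq_top hx.1.le hx.2.le]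
      nlinarith [mul_le_mul_of_nonneg_left (mul_le_mul_of_nonneg_left h4 hA.le) (sq_nonneg η⁻¹)]
    · have h4 := (QQ_nonpos (fun a => hF.D a) hu
        (hm.isLocalMax ((ev_lt hθ h3).mono fun _ hx => hx.le))).2
      rw [QQ_grad, he q (by linarith)] at h4
      have h5 := nonpos_of_mul_nonpos_right h4 (one_pos.trans_le (one_le_wq h0 h1 _))
      exact (nonpos_of_mul_nonpos_right h5 hA).trans_lt hδ
  refine ⟨η, h0, h1, fun u hu he p hp => abs_lt.2 ⟨neg_lt.1 ?_, key u hu he p hp⟩⟩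
  exact key _ hu.neg (fun q hq => by rw [hF_neg]; simp only [he q hq]; ring) p hp

/-- **the cut-off behind the wall** -/
theorem cut_side (hF : M.Sm F) (hθ : M.Sm θ) {A ε : ℝ} (hA : 0 < A) (hε : 0 < ε) :
    ∃ η, 0 < η ∧ η ≤ 1 ∧ ∀ (u : X → ℝ) (b Λ : ℝ), M.Adm F Λ u →
      (∀ p, θ p < 1 → M.hF F u p = wq η (θ p) * (A * (u p - b))) →
      ∃ w, M.Adm F (max Λ ε) w ∧ ∀ p, |w p - u p| ≤ ε ∧ (θ p ≤ 1 / 7 → -(2 * ε) ≤ gn M F w p) ∧
        (1 / 8 < θ p → w =ᶠ[𝓝 p] u) ∧ (θ p < 1 / 16 → w p = b) ∧ w p ∈ uIcc b (u p) := by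
  have hc := hθ.continuous
  have hχ := hθ.comp (contDiff_ct 16 (-1))
  obtain ⟨δ, hδ, H⟩ := cut_jet (U := {p | θ p < 3 / 16}) (K := {p | θ p ≤ 1 / 7})
    (isOpen_lt hc continuous_const) hF hA hχ (isClosed_le hc continuous_const).isCompact
    (fun p (hp : θ p ≤ _) => hp.trans_lt (by norm_num : (1 / 7 : ℝ) < 3 / 16)) hε
  obtain ⟨η, h0, h1, h2⟩ := pin hF hθ hA (lt_min hδ hε)
  refine ⟨η, h0, h1, fun u b Λ ha he => ?_⟩
  have hv : M.Sm fun p => u p + -b := ha.sm.add (sm_const _)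
  have h3 := h2 _ hv fun p hp => by rw [hF_add_const, he p hp, sub_eq_add_neg]
  have h4 := H _ hv fun p hp => ⟨by
    rw [hF_add_const, he p (lt_trans hp (by norm_num)), wq_out (Or.inl (le_of_lt hp)), one_mul,
      sub_eq_add_neg], (h3 p (le_trans (le_of_lt hp) (by norm_num))).trans_le (min_le_left _ _)⟩
  have h5 : ∀ p, 1 / 8 < θ p → (fun q => ct 16 (-1) (θ q) * (u q + -b) + b) =ᶠ[𝓝 p] u :=
    fun p hp => (ev_gt hθ hp).mono fun q hq => by
      simp only [ct_one (a := 16) (c := -1) (t := θ q) (by linarith)]; ring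
  have h6 : ∀ p, θ p ≤ 1 / 7 ∨ 1 / 8 < θ p := fun p =>
    (le_or_gt (θ p) (1 / 7)).imp_right fun h => lt_trans (by norm_num) h
  refine ⟨fun q => ct 16 (-1) (θ q) * (u q + -b) + b, ⟨(hχ.mul hv).add (sm_const _), fun p => ?_,
    fun c p => ?_, fun p => ?_⟩, fun p => ⟨?_, fun hp => ?_, h5 p, fun hp => ?_, ?_⟩⟩
  · rcases h6 p with hp | hp
    · rw [hF_add_const]; exact le_max_of_le_right (h4 p hp).1
    · rw [hF_congr (h5 p hp)]; exact le_max_of_le_left (ha.h p)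
  · rcases h6 p with hp | hp
    · rw [hF_add_const, gS_D_add_const]; exact le_max_of_le_right ((h4 p hp).2.2 c)
    · rw [gD_congr (h5 p hp) (hF_ev (h5 p hp) F)]; exact le_max_of_le_left (ha.dh c p)
  · rcases h6 p with hp | hp
    · rw [hF_add_const, Xf_add_const]
      exact (neg_le_neg (le_max_right _ _)).trans (abs_le.1 (h4 p hp).2.1).1
    · rw [dir_congr (h5 p hp) (hF_ev (h5 p hp) F)]
      exact (neg_le_neg (le_max_left _ _)).trans (ha.xh p)
  · rcases h6 p with hp | hp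
    · have h7 := (h3 p (hp.trans (by norm_num))).le.trans (min_le_right _ _)
      rw [show ct 16 (-1) (θ p) * (u p + -b) + b - u p = (ct 16 (-1) (θ p) - 1) * (u p + -b) by ring,
        abs_mul]
      refine (mul_le_of_le_one_left (abs_nonneg _) (abs_le.2 ⟨?_, ?_⟩)).trans h7 <;>
        linarith [ct_nonneg 16 (-1) (θ p), ct_le_one 16 (-1) (θ p)]
    · rw [(h5 p hp).self_of_nhds, sub_self, abs_zero]; exact hε.le
  · rw [gn_add_const, gn]
    linarith [(abs_le.1 (h4 p hp).2.1).1, sq_nonneg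
      (M.hF F (fun q => ct 16 (-1) (θ q) * (u q + -b)) p)]
  · simp only [ct_zero (a := 16) (c := -1) (t := θ p) (by linarith), zero_mul, zero_add]
  · have := mem_cut ordConnected_uIcc left_mem_uIcc (right_mem_uIcc (a := b) (b := u p))
      (ct_nonneg 16 (-1) (θ p)) (ct_le_one 16 (-1) (θ p))
    rwa [add_comm, sub_eq_add_neg] at this

/-- a weak sequence may be modified where it is large -/
theorem _root_.Crest.Agent.N228.WSeq.modify [BorelSpace X] {k : X → ℝ} {Λ Λ' : ℝ}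
    {𝒰 : Ultrafilter ℕ} {u w : ℕ → X → ℝ} {τ s : ℕ → ℝ} (h : WSeq M F k Λ 𝒰 u τ s) {Z : Set X}
    (ha : ∀ j, M.Adm F Λ' (w j)) (h1 : ∀ j p, |w j p - u j p| ≤ 1)
    (h2 : ∀ j p, p ∉ Z → w j =ᶠ[𝓝 p] u j)
    (h3 : ∀ T : ℝ, ∀ᶠ j in (𝒰 : Filter ℕ), ∀ p ∈ Z, T ≤ |u j p|) : WSeq M F k Λ' 𝒰 w τ s := by
  have h4 : ∀ j p T, |w j p| ≤ T → |u j p| ≤ T + 1 := fun j p T hp => by
    linarith [abs_sub_abs_le_abs_sub (u j p) (w j p), abs_sub_comm (u j p) (w j p), h1 j p]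
  refine ⟨h.smh, ha, h.pos, h.tau, h.sh, fun T => ?_, fun T => ?_⟩
  · filter_upwards [h.eq T, h3 (T + 2)] with j e1 e2 p hp
    have h5 := h2 j p fun hz => by linarith [e2 p hz, h4 j p T hp]
    rw [hF_congr h5, h5.self_of_nhds]
    exact e1 p (h5.self_of_nhds ▸ hp)
  · exact squeeze_zero (fun _ => measureReal_nonneg)
      (fun j => measureReal_mono fun p hp => h4 j p T hp) (h.thin (T + 1))

/-- the gain of the graph of `u` -/
def LowN (M : Imm d ι X) (F h : X → ℝ) (δ : ℝ) (u : X → ℝ) : Prop :=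
  ∀ p, min 0 (h p ^ 2 - 2 * |M.pre.dir (M.Xf u) h p|) - δ ≤ gn M F u p

/-- **the cut-off of a weak sequence** -/
theorem cut_seq [BorelSpace X] (hF : M.Sm F) (hθ : M.Sm θ) {A δ : ℝ} (hA : 0 < A) (hδ : 0 < δ) :
    ∃ η, 0 < η ∧ η ≤ 1 ∧ ∀ (h : X → ℝ) (Λ : ℝ) (𝒰 : Ultrafilter ℕ) (u : ℕ → X → ℝ) (τ s b : ℕ → ℝ),
      WSeq M F h Λ 𝒰 u τ s → (∀ j, LowN M F h δ (u j)) →
      (∀ j p, θ p < 1 → M.hF F (u j) p = wq η (θ p) * (A * (u j p - b j))) →
      (∀ T : ℝ, ∀ᶠ j in (𝒰 : Filter ℕ), ∀ p, θ p ≤ 1 → T ≤ |u j p|) →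
      ∃ Λ' w, WSeq M F h Λ' 𝒰 w τ s ∧ (∀ j, LowN M F h δ (w j)) ∧ ∀ j p, |w j p - u j p| ≤ 1 ∧
        (1 / 8 < θ p → w j =ᶠ[𝓝 p] u j) ∧ (θ p < 1 / 16 → w j p = b j) ∧
        w j p ∈ uIcc (b j) (u j p) := by
  obtain ⟨η, h0, h1, H⟩ := cut_side hF hθ hA (lt_min one_pos (half_pos hδ))
  refine ⟨η, h0, h1, fun h Λ 𝒰 u τ s b hs hl he hb => ?_⟩
  choose w ha hw using fun j => H (u j) (b j) Λ (hs.adm j) (he j)
  have h2 := fun j p => (hw j p).1.trans (min_le_left _ _)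
  refine ⟨_, w, hs.modify (Z := {p | θ p ≤ 1}) ha h2
    (fun j p hp => (hw j p).2.2.1 (lt_trans (by norm_num) (not_le.1 hp))) hb, fun j p => ?_,
    fun j p => ⟨h2 j p, (hw j p).2.2⟩⟩
  rcases le_or_gt (θ p) (1 / 7) with hp | hp
  · linarith [(hw j p).2.1 hp, min_le_right 1 (δ / 2),
      min_le_left 0 (h p ^ 2 - 2 * |M.pre.dir (M.Xf (w j)) h p|)]
  · have h3 := (hw j p).2.2.1 (lt_trans (by norm_num) hp)
    rw [gn_congr h3, dir_congr h3 EventuallyEq.rfl]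
    exact hl j p

end Crest.Agent.N228.Nk

end
end

-- ▼ part N228/Nk/Two

/-!
# Row 228, necks (helper16): the neck between two walls
-/

set_option autoImplicit false
set_option linter.unusedSectionVars false
open MeasureTheory Set Filter Topology Function
open scoped ContDiff
open Crest.Agent.N222 Crest.Agent.N222.Imm Crest.Agent.N228.J Crest.Agent.N228.I

noncomputable section

namespace Crest.Agent.N228.Nk

variable {d : ℕ} {ι : Type} [Fintype ι] [DecidableEq ι] {X : Type} [TopologicalSpace X]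
  [MeasurableSpace X] {M : Imm d ι X} {F u q k θ : X → ℝ} {S : ℝ → ℝ} {p : X}

/-- off the wall: stiff or soft -/
theorem Sol.low (h : Sol M F q k S u) {A σ B δ : ℝ} (hA : 0 < A) (hσ : 0 ≤ σ)
    (hq : q =ᶠ[𝓝 p] fun _ => 1) (hS : A ≤ deriv S (u p) ∨ |S (u p)| ≤ σ) (h1 : |k p| ≤ B)
    (h2 : M.pre.gam k k p ≤ δ * A) (h3 : 2 * σ * B ≤ δ) :
    min 0 (k p ^ 2 - 2 * |M.pre.dir (M.Xf u) k p|) - δ ≤ gn M F u p := by
  have e1 := hq.self_of_nhds
  have e2 : M.pre.gam q q p = 0 := gam_ev hq q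
  rcases hS with hS | hS
  · have := h.gn_stiff hA hS (by rw [e2, e1]; positivity)
    rw [e1, one_mul] at this
    linarith [(div_le_iff₀ hA).2 h2, min_le_left 0 (k p ^ 2 - 2 * |M.pre.dir (M.Xf u) k p|)]
  · linarith [h.gn_soft hS e1 e2, min_le_right 0 (k p ^ 2 - 2 * |M.pre.dir (M.Xf u) k p|),
      mul_le_mul_of_nonneg_left h1 (mul_nonneg zero_le_two hσ)]

theorem gam_wq (hθ : M.Sm θ) {η A : ℝ} (h0 : 0 < η) (h1 : η ≤ 1)
    (hA : (32 / 3 * N222.A.cc) ^ 2 * M.pre.gam θ θ p ≤ A) (hq : q =ᶠ[𝓝 p] fun x => wq η (θ x)) :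
    M.pre.gam q q p ≤ A * q p ^ 3 := by
  obtain ⟨e, he, h2⟩ := hasDerivAt_wq h0 h1 (θ p)
  rw [gam_congr hq hq, gam_comp_self hθ he, hq.self_of_nhds]
  refine (mul_le_mul_of_nonneg_right h2 (gam_self_nonneg _ _)).trans ?_
  rw [mul_right_comm]
  exact mul_le_mul_of_nonneg_right hA (pow_nonneg (zero_le_one.trans (one_le_wq h0 h1 _)) 3)

variable [T2Space X] [CompactSpace X]

theorem exists_rad (hi : Injective M.x) {f : X → ℝ} (hf : M.Sm f) {ε : ℝ} (hε : 0 < ε) :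
    ∃ r > 0, ∀ p p', ‖M.x p' - M.x p‖ < r → |f p' - f p| < ε := by
  obtain ⟨L, hL, h⟩ := hf.exists_lip hi
  exact ⟨ε / L, by positivity, fun p p' hp => (h p' p).trans_lt ((lt_div_iff₀' hL).1 hp)⟩

/-- existence, with parameters -/
theorem exists_Sol {Λ : Type} [TopologicalSpace Λ] [FirstCountableTopology Λ] (hF : M.Sm F)
    {q k : Λ → X → ℝ} (hq : JC M.atl univ q) (hk : JC M.atl univ k) (h1 : ∀ l p, 1 ≤ q l p)
    {L : Λ → ℝ} (hL : Continuous L) {A τ : ℝ} (hτ : 0 < τ) (hA : τ ≤ A) (δ : ℝ) :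
    ∃ u : Λ → X → ℝ, JC M.atl univ u ∧
      ∀ l, Sol M F (q l) (k l) (fun t => prof A τ δ (L l, t)) (u l) ∧
        ((∀ p, k l p = 0) → ∀ p, u l p = 0) := by
  obtain ⟨u, h2, h3⟩ := exists_fam_S (b := fun _ a => M.pre.D a F) (contDiff_prof A τ δ) hL
    (fun l => ⟨τ, hτ, le_deriv_prof hA δ _⟩) (Fm.fixed M rfl isOpen_univ)
    (fun a => JC.of_sm rfl isOpen_univ (hF.D a)) hq hk fun l p => one_pos.trans_le (h1 l p)
  refine ⟨u, h2, fun l => ⟨⟨hq.sm rfl l, hk.sm rfl l, contDiff_prof' _ _ _ _, (h3 l).1, h1 l,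
    fun t => hτ.le.trans (le_deriv_prof hA δ _ t), fun p => ?_⟩, fun h p => le_antisymm
      ((h3 l).2.2.1 0 (fun p => by rw [h, prof_zero]) p)
      ((h3 l).2.2.2 0 (fun p => by rw [h, prof_zero]) p)⟩⟩
  rw [← QQ_grad]
  exact (h3 l).2.1 p

variable [SecondCountableTopology X] [BorelSpace X]

/-- **the neck between two walls** -/
theorem two (hi : Injective M.x) (hF : M.Sm F) {θp θm : X → ℝ} (hp : M.Sm θp) (hm : M.Sm θm)
    (hd : ∀ p, θp p < 2 → 2 ≤ θm p) {δ : ℝ} (hδ : 0 < δ) : ∃ K : ℝ, ∀ (h : X → ℝ) (Kp Km : ℝ),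
      M.Sm h → K ≤ Kp → Km ≤ -K → (∀ p, θp p < 2 → h p = Kp) → (∀ p, θm p < 2 → h p = Km) →
      ∃ Λ 𝒰 u τ s, WSeq M F h Λ 𝒰 u τ s ∧ (∀ j, LowN M F h δ (u j)) ∧
        (∀ T : ℝ, ∀ᶠ j in (𝒰 : Filter ℕ), ∀ p, (θp p ≤ 1 → T ≤ u j p) ∧ (θm p ≤ 1 → u j p ≤ -T)) ∧
        ∀ j, ∃ lo hi : ℝ, (∀ p, (θp p < 1 / 16 → u j p = hi) ∧ (θm p < 1 / 16 → u j p = lo)) ∧
          ((∀ p, Km ≤ h p ∧ h p ≤ Kp) → lo ≤ hi ∧ ∀ p, lo ≤ u j p ∧ u j p ≤ hi) := by
  obtain ⟨r0, C, h0, hC, hbar⟩ := sol_bar hi hF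
  obtain ⟨r1, h1, l1⟩ := exists_rad hi hp one_pos
  obtain ⟨r2, h2, l2⟩ := exists_rad hi hm one_pos
  set r := min r0 (min r1 r2)
  have hr : 0 < r := by positivity
  refine ⟨C / r + 1, fun h Kp Km hh hKp hKm ep em => ?_⟩
  obtain ⟨B, hB, bB⟩ := exists_bound ((hh.continuous.prodMk (hh.gam hh).continuous).prodMk
    (((hp.gam hp).continuous.const_mul ((32 / 3 * N222.A.cc) ^ 2)).prodMk
      ((hm.gam hm).continuous.const_mul ((32 / 3 * N222.A.cc) ^ 2))))
  simp only [Prod.norm_mk, max_le_iff, Real.norm_eq_abs] at bB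
  set A := B + B / δ
  have hA : 0 < A := by positivity
  have hBA : B ≤ A := le_add_of_nonneg_right (by positivity)
  have hδA : B ≤ δ * A := by
    rw [mul_add, mul_div_cancel₀ _ hδ.ne']; exact le_add_of_nonneg_left (by positivity)
  obtain ⟨ηp, p0, p1, cp⟩ := cut_seq hF hp hA hδ
  obtain ⟨ηm, m0, m1, cm⟩ := cut_seq hF hm hA hδ
  obtain ⟨δ0, τ, hδ0, hτ, hτL⟩ := exists_par (σ := min (1 / 2) (δ / (2 * B))) hA (by positivity)
  set q : X → ℝ := fun p => wq ηp (θp p) * wq ηm (θm p) with hq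
  have qp : ∀ p, 1 < θm p → q =ᶠ[𝓝 p] fun x => wq ηp (θp x) := fun p h =>
    (ev_gt hm h).mono fun x hx => by simp only [hq, wq_out (Or.inr hx.le), mul_one]
  have qm : ∀ p, 1 < θp p → q =ᶠ[𝓝 p] fun x => wq ηm (θm x) := fun p h =>
    (ev_gt hp h).mono fun x hx => by simp only [hq, wq_out (Or.inr hx.le), one_mul]
  have q1 : ∀ p, 1 < θp p → 1 < θm p → q =ᶠ[𝓝 p] fun _ => 1 := fun p h h' =>
    (qp p h').trans ((ev_gt hp h).mono fun x hx => wq_out (Or.inr hx.le))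
  have dp : ∀ p, θp p ≤ 1 → 1 < θm p := fun p h => by linarith [hd p (by linarith)]
  have dm : ∀ p, θm p ≤ 1 → 1 < θp p := fun p h => lt_of_not_ge fun h' => (dp p h').not_ge h
  choose u hu using fun j : ℕ => exists_Sol (Λ := Unit) (L := fun _ => j) hF
    (JC.of_sm rfl isOpen_univ ((hp.comp (contDiff_wq p0 p1)).mul (hm.comp (contDiff_wq m0 m1))))
    (JC.of_sm rfl isOpen_univ hh)
    (fun _ p => one_le_mul_of_one_le_of_one_le (one_le_wq p0 p1 _) (one_le_wq m0 m1 _))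
    continuous_const (hτ j).1 (hτ j).2.1 δ0
  have hs : ∀ j, Sol M F q h (fun t => prof A (τ j) δ0 (j, t)) (u j ()) := fun j => ((hu j).2 ()).1
  have hσ : ∀ j : ℕ, τ j * (j + δ0) + A * δ0 < 1 := fun j =>
    ((hτ j).2.2.trans (min_le_left _ _)).trans_lt (by norm_num)
  have out := fun (j : ℕ) t => prof_out (t := t) (hτ j).1.le (hτ j).2.1 hδ0 j.cast_nonneg (hσ j)
  have bp : ∀ (j : ℕ) p, θp p ≤ 1 → j + δ0 ≤ u j () p := fun j p h => (out j _).1 (by
    have := (hbar _ _ _ _ (hs j) r Kp p hr (min_le_left _ _)).1 fun p' h' => (ep p' (by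
      linarith [(abs_lt.1 (l1 p p' (h'.trans_le ((min_le_right _ _).trans
        (min_le_left _ _))))).2])).ge
    linarith)
  have bm : ∀ (j : ℕ) p, θm p ≤ 1 → u j () p ≤ -(j + δ0) := fun j p h => (out j _).2 (by
    have := (hbar _ _ _ _ (hs j) r Km p hr (min_le_left _ _)).2 fun p' h' => (em p' (by
      linarith [(abs_lt.1 (l2 p p' (h'.trans_le ((min_le_right _ _).trans
        (min_le_right _ _))))).2])).le
    linarith)
  have low : ∀ j, LowN M F h δ (u j ()) := by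
    intro j p
    have key : ∀ c, (h =ᶠ[𝓝 p] fun _ => c) → j + δ0 ≤ |u j () p| →
        M.pre.gam q q p ≤ A * q p ^ 3 →
        min 0 (h p ^ 2 - 2 * |M.pre.dir (M.Xf (u j ())) h p|) - δ ≤ gn M F (u j ()) p := by
      intro c e1 e2 e3
      have := (hs j).gn_stiff hA (prof_stiff (hτ j).2.1 hδ0 e2) e3
      rw [gam_ev e1, mul_zero, zero_div, neg_zero] at this
      linarith [min_le_left 0 (h p ^ 2 - 2 * |M.pre.dir (M.Xf (u j ())) h p|)]
    rcases le_or_gt (θp p) 1 with a1 | a1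
    · exact key Kp ((ev_lt hp (by linarith)).mono ep) ((bp j p a1).trans (le_abs_self _))
        (gam_wq hp p0 p1 ((le_abs_self _).trans ((bB p).2.1.trans hBA)) (qp p (dp p a1)))
    rcases le_or_gt (θm p) 1 with a2 | a2
    · exact key Km ((ev_lt hm (by linarith)).mono em) ((le_neg.1 (bm j p a2)).trans (neg_le_abs _))
        (gam_wq hm m0 m1 ((le_abs_self _).trans ((bB p).2.2.trans hBA)) (qm p a1))
    refine (hs j).low (σ := δ / (2 * B)) hA (by positivity) (q1 p a1 a2)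
      ((prof_cases (hτ j).1.le (hτ j).2.1 hδ0 _ _).imp_right fun h =>
        h.trans ((hτ j).2.2.trans (min_le_right _ _))) (bB p).1.1
      ((le_abs_self _).trans ((bB p).1.2.trans hδA)) (le_of_eq (by field_simp))
  obtain ⟨Λ, 𝒰, a, h𝒰, ha, hw⟩ := exists_wseq (L := fun j => j) hs
    (fun j => deriv_prof_le (hτ j).1.le (hτ j).2.1 δ0 _) (fun j => (hτ j).1)
    (fun j => j.cast_nonneg) (fun j t ht => prof_soft hδ0 ht) tendsto_natCast_atTop_atTop hτL
    (.of_forall fun j p h => (q1 p (lt_of_not_ge fun h' => by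
      linarith [bp j p h', le_abs_self (u j () p)]) (lt_of_not_ge fun h' => by
      linarith [bm j p h', neg_abs_le (u j () p)])).self_of_nhds)
  have big : ∀ T : ℝ, ∀ᶠ j : ℕ in (𝒰 : Filter ℕ), T ≤ j := fun T =>
    h𝒰 (tendsto_natCast_atTop_atTop.eventually_ge_atTop T)
  choose c hc using fun j : ℕ => prof_lin A (τ j) hδ0 j.cast_nonneg
  obtain ⟨Λ1, w1, s1, g1, e1⟩ := cp h _ _ _ _ _ (fun j => (Kp + c j) / A + -a j) hw
    (fun j p => by rw [gn_add_const, Xf_add_const]; exact low j p)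
    (fun j p h => by
      rw [hF_add_const, (hs j).eq, (qp p (dp p h.le)).self_of_nhds, (hc j _).1 (bp j p h.le),
        ep p (by linarith)]
      field_simp; ring)
    fun T => (big (2 * T)).mono fun j hj p h => le_abs.2 (Or.inl (by linarith [bp j p h, ha j]))
  have e2 : ∀ j p, θm p ≤ 1 → w1 j =ᶠ[𝓝 p] fun p => u j () p + -a j := fun j p h =>
    (e1 j p).2.1 (by linarith [dm p h])
  obtain ⟨Λ2, w2, s2, g2, e3⟩ := cm h _ _ _ _ _ (fun j => (Km - c j) / A + -a j) s1 g1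
    (fun j p h => by
      rw [hF_congr (e2 j p h.le), (e2 j p h.le).self_of_nhds, hF_add_const, (hs j).eq,
        (qm p (dm p h.le)).self_of_nhds, (hc j _).2 (bm j p h.le), em p (by linarith)]
      field_simp; ring)
    fun T => (big T).mono fun j hj p h => le_abs.2 (Or.inr (by
      rw [(e2 j p h).self_of_nhds]; linarith [bm j p h, ha j]))
  refine ⟨Λ2, 𝒰, w2, _, _, s2, g2, fun T => (big (2 * (T + 2))).mono fun j hj p =>
    ⟨fun h => ?_, fun h => ?_⟩, fun j => ⟨(Km - c j) / A + -a j, (Kp + c j) / A + -a j,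
      fun p => ⟨fun h => ?_, (e3 j p).2.2.1⟩, fun hK => ?_⟩⟩
  · linarith [bp j p h, ha j, (abs_le.1 (e1 j p).1).1, (abs_le.1 (e3 j p).1).1]
  · linarith [bm j p h, ha j, (abs_le.1 (e1 j p).1).2, (abs_le.1 (e3 j p).1).2,
      j.cast_nonneg (α := ℝ)]
  · rw [((e3 j p).2.1 (by linarith [dp p (by linarith)])).self_of_nhds, (e1 j p).2.2.1 h]
  · have hpos : 0 < C / r := by positivity
    have a1 := (hc j _).1 (le_refl _)
    have a2 := (abs_le.1 (abs_prof_le (t := j + δ0) (hτ j).1.le (hτ j).2.1 hδ0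
      (abs_of_nonneg (by positivity)).le)).2
    have a3 : j + δ0 ≤ (Kp + c j) / A := (le_div_iff₀' hA).2 (by linarith [hσ j])
    have a4 : (Km - c j) / A ≤ -(j + δ0) := (div_le_iff₀' hA).2 (by linarith [hσ j])
    have a0 : (0 : ℝ) ≤ j + δ0 := by positivity
    have a5 : ∀ p, u j () p + -a j ∈ Icc ((Km - c j) / A + -a j) ((Kp + c j) / A + -a j) := by
      refine fun p => ⟨add_le_add_left ?_ _, add_le_add_left ?_ _⟩
      · refine (le_total (u j () p) (-(j + δ0))).elim (fun h => (div_le_iff₀' hA).2 ?_) a4.trans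
        have := (hs j).neg.S_le (fun p => neg_le_neg (hK p).1) p
        simp only [neg_neg, (hc j _).2 h] at this
        linarith
      · refine (le_total (j + δ0) (u j () p)).elim (fun h => (le_div_iff₀' hA).2 ?_) (·.trans a3)
        have := (hs j).S_le (fun p => (hK p).2) p
        simp only [(hc j _).1 h] at this
        linarith
    have a6 : (Km - c j) / A + -a j ≤ (Kp + c j) / A + -a j := by linarith
    exact ⟨a6, fun p => uIcc_subset_Icc (left_mem_Icc.2 a6)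
      (uIcc_subset_Icc (right_mem_Icc.2 a6) (a5 p) (e1 j p).2.2.2) (e3 j p).2.2.2⟩

end Crest.Agent.N228.Nk

end
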